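import Vale.Agent.P354D.Main
import Vale.Agent.P354I.Core2

/-!
The difference estimate for two families of solutions with the same source.
-/

open scoped ContDiff
open Set MeasureTheory Filter Topology

namespace Vale.Agent.P354E2

open Vale.Agent.P354H Vale.Agent.P354C Vale.Agent.P354D
open Vale.Agent.P354A (Wt dxl cmp Pb U0 bY cls ex)
open Vale.Agent.P354AS (SolS)
open Vale.Agent.P354I (IsBS Fam2 r2 cut)

/-- DIFF with a source (which cancels). The initial values of w n and w' n differ by at most M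
(with four angular derivatives) for sgn b * x ≤ R + 2 and agree for sgn b * x ≤ x1 and for r2 ≥ 16. Then the component cpt b of the
difference is nearly constant along the lines sgn b * x = y - tau, y ≤ R + 1. -/
def DIFF2 : Prop :=
  ∀ (k : ℝ) (a A : ℝ → ℝ) (A0 : ℝ), 0 < k → Wt k a A A0 → ContDiff ℝ 1 a →
    ∃ μ0 > 0, ∃ C ≥ 0, ∀ (ρ δ1 ε1 : ℝ) (n1 : ℕ) (Cb : ℕ → ℝ) (K f : R4 → Ix → ℝ) (ε δ cb : ℝ)
      (w0 w0' : X3 → Ix → ℝ) (w w' : ℕ → R4 → Ix → ℝ) (μ : ℝ),
      IsBS k ρ δ1 ε1 n1 Cb K f → 0 ≤ ε →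
      Fam2 k a ε δ cb K f w0 w → Fam2 k a ε δ cb K f w0' w' → ε + |Cb 5| * √ρ ≤ μ → μ ≤ μ0 →
      ∀ (b : Bool) (n : ℕ) (T x1 R M Z : ℝ), 0 ≤ T → x1 ≤ R + 2 → 0 ≤ M →
        (∀ z : X3, sgn b * z.1 ≤ x1 ∨ 16 ≤ r2 z → w' n (0, z) = w n (0, z)) →
        (∀ i (α : List (Fin 3)), α.length ≤ 4 → (0 : Fin 3) ∉ α → ∀ z : X3, sgn b * z.1 ≤ R + 2 →
          |pdl α (fun y => w' n (0, y) i - w n (0, y) i) z| ≤ M) →
        (∀ y ∈ Icc x1 (R + 2), 1 / a y ≤ Z) →
        ∃ H : ℝ → ℝ, Continuous H ∧ HasCompactSupport H ∧ (∀ y, 0 ≤ H y) ∧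
          (∀ y ≤ R + 1, ∀ θ : ℝ × ℝ, ∀ t ∈ Icc 0 T,
            ((w' n (t, sgn b * (y - t), θ) (cpt b) - w n (t, sgn b * (y - t), θ) (cpt b)) -
              (w' n (0, sgn b * y, θ) (cpt b) - w n (0, sgn b * y, θ) (cpt b))) ^ 2 ≤ a y * H y) ∧
          ∫ y, H y ≤ C * μ ^ 2 * (M ^ 2 * Z * (R + 2 - x1))

theorem bds_two {k A0 ρ δ1 ε1 ε δ cb μ T : ℝ} {a A : ℝ → ℝ} {Cb : ℕ → ℝ} {n1 : ℕ}
    {K f v : R4 → Ix → ℝ}
    {w0 : X3 → Ix → ℝ} {w : ℕ → R4 → Ix → ℝ} {n : ℕ} (hk : 0 < k) (h : Wt k a A A0)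
    (hK : IsBS k ρ δ1 ε1 n1 Cb K f) (hε : 0 ≤ ε) (hw : Fam2 k a ε δ cb K f w0 w)
    (hμ : ε + |Cb 5| * √ρ ≤ μ)
    (hv : SolS K (cut n f) v T) (hv' : ∀ p : R4, p.1 < T + 1 → v p = w n p) {p : R4}
    (hp : p.1 ∈ Icc 0 T) (i : Ix) : N 5 (fun p => (K + v) p i - K0 k i) p ≤
      32 * μ * (alC (wA a p) (wB a p) (cl i) + wE (k / 8) p) := by
  have s1 : Sm fun p => K p i - K0 k i := (contDiffOn_univ.1 (hK.smooth.1 i)).sub contDiff_const
  have e : (fun p => (K + v) p i - K0 k i) = fun p => (K p i - K0 k i) + cmp v i p :=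
    funext fun p => by simp only [Pi.add_apply, P354A.cmp]; ring
  have g : cmp v i =ᶠ[𝓝 p] cmp (w n) i := by
    filter_upwards [(isOpen_lt continuous_fst continuous_const).mem_nhds
      (show p.1 < T + 1 by linarith [hp.2])] with q hq
    exact congrFun (hv' q hq) i
  have a1 : N 5 (cmp v i) p ≤ 2 ^ 5 * (ε * bY k a (cls i) p.1 p.2.1) := N_words fun α hα _ => by
    rw [(dxl_germ α g).self_of_nhds]
    exact (hw.out n p hp.1).Y i α hα
  have a2 : N 5 (fun p => K p i - K0 k i) p ≤ 2 ^ 5 * (Cb 5 * √ρ * Real.exp (-k * p.1 / 2)) :=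
    N_words fun α hα _ => by
      have := hK.bound 5 p.1 (by linarith [hp.1]) i α hα p.2
      simp only [← K0_eq] at this
      rwa [show (fun z => K (p.1, z) i - K0 k i) = sl (fun p => K p i - K0 k i) p.1 from rfl,
        P354A.dxl_sl α s1] at this
  have b0 : 0 ≤ alC (wA a p) (wB a p) (cl i) := by
    have := h.pos (lf 1 (-1) p)
    have := h.pos (lf 1 1 p)
    cases cl i <;> simp only [alC, wA, wB] <;> positivity
  have b1 : Real.exp (-k * p.1 / 2) ≤ alC (wA a p) (wB a p) (cl i) + wE (k / 8) p := by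
    rw [wE_eq]
    exact (Real.exp_le_exp.2 (by nlinarith [hp.1])).trans (le_add_of_nonneg_left b0)
  have b2 := mul_le_mul_of_nonneg_left (bY_le hk h i hp.1) hε
  have b3 := mul_le_mul (mul_le_mul_of_nonneg_right (le_abs_self (Cb 5)) (Real.sqrt_nonneg ρ)) b1
    (Real.exp_pos _).le (by positivity)
  have b4 := mul_le_mul_of_nonneg_right hμ ((Real.exp_pos _).le.trans b1)
  rw [e]
  linarith [N_add (k := 5) (p := p) s1 (hv.sm i)]

/-- **DIFF2.** -/
theorem diff2 : DIFF2 := by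
  intro k a A A0 hk hW ha1
  have hI : 0 < A0 + 1 := by linarith [hW.nn 0, hW.bd 0]
  have ha : Wa a A (k / 64) (A0 + 1) := ⟨ha1, hW.pos, hW.le, hW.even, fun y => by
    obtain ⟨a', h1, h2⟩ := hW.der y
    rwa [h1.deriv], hW.prim, hW.nn, fun y => (hW.bd y).trans (by linarith), hI⟩
  obtain ⟨r, θ, μ1, m0, hs⟩ := exists_sml hk hI
  have s0 := hs 0 ⟨le_rfl, m0.le⟩
  have C0 : 0 ≤ CZ (A0 + 1) (k / 8) r θ := by
    have := s0.r0
    have := s0.θ0
    unfold CZ
    positivity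
  refine ⟨μ1 / 32, by positivity, CZ (A0 + 1) (k / 8) r θ * 32 ^ 2 * (38 * 16 ^ 2 * 64),
    by positivity, ?_⟩
  intro ρ δ1 ε1 n1 Cb K f ε δ cb w0 w0' w w' μ hK hε hw hw' hμ hμ0 b n T x1 R M Z hT hx hM hz hb hZ
  obtain ⟨v, hv, ev⟩ := hw.supp n T
  obtain ⟨v', hv', ev'⟩ := hw'.supp n T
  have μ0 : 0 ≤ μ := le_trans (by positivity) hμ
  have sK : ∀ i, Sm fun p => K p i := fun i => contDiffOn_univ.1 (hK.smooth.1 i)
  have ed : ∀ i, dl (fun i p => (K + v) p i - K0 k i) (fun i p => (K + v') p i - K0 k i) i =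
      fun p => cmp v' i p - cmp v i p := fun i => funext fun p => by
    simp only [dl, Pi.add_apply, P354A.cmp]
    ring
  have hD : Df k T (fun i p => (K + v) p i - K0 k i) fun i p => (K + v') p i - K0 k i :=
    ⟨fun i => ((sK i).add (hv.sm i)).sub contDiff_const,
      fun i => ((sK i).add (hv'.sm i)).sub contDiff_const,
      fun i => ed i ▸ (hv'.cs i).sub (hv.cs i),
      fun p hp i => by rw [lhs_eq, lhs_eq, hv.eq p hp i, hv'.eq p hp i]⟩
  have c1 : ContDiff ℝ 1 fun y => Real.smoothTransition (R + 2 - y) :=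
    Real.smoothTransition.contDiff.comp (contDiff_const.sub contDiff_id)
  obtain ⟨H, k1, k2, k3, k4, k5⟩ := incr hD ha (hs (32 * μ) ⟨by positivity, by linarith⟩)
    (fun p hp i => ⟨bds_two hk hW hK hε hw hμ hv ev hp i, bds_two hk hW hK hε hw' hμ hv' ev' hp i⟩)
    hT c1 (fun y => Real.smoothTransition.nonneg _)
    (fun y y' h => Real.smoothTransition.monotone (by linarith)) (i := cpt b) (ε := -sgn b)
    (by cases b <;> simp [cpt, sgn, cl]) (by cases b <;> rfl)
  have ea : ∀ y, a (sgn b * y) = a y := fun y => by cases b <;> simp [sgn, hW.even]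
  refine ⟨fun y => H (sgn b * y), by fun_prop, ?_, fun y => k3 _, fun y hy φ t ht => ?_, ?_⟩
  · cases b
    · simpa [sgn, Function.comp_def] using k2.comp_homeomorph (Homeomorph.neg ℝ)
    · simpa [sgn] using k2
  · have q := k4 (sgn b * y) φ t ht
    rw [neg_neg, ← mul_assoc, sgn_sq, one_mul, Real.smoothTransition.one_of_one_le (by linarith),
      ea, ed, one_div_mul_eq_div, div_le_iff₀' (hW.pos y),
      show sgn b * y + -sgn b * t = sgn b * (y - t) by ring] at q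
    simp only [P354A.cmp] at q
    rwa [ev _ (by linarith [ht.2]), ev' _ (by linarith [ht.2]), ev _ (by linarith),
      ev' _ (by linarith)] at q
  have e1 : ∫ y, H (sgn b * y) = ∫ y, H y := by
    cases b
    · simpa [sgn] using integral_neg_eq_self H volume
    · simp [sgn]
  rw [e1]
  refine k5.trans ?_
  have Z0 : 0 ≤ Z := (one_div_pos.2 (hW.pos _)).le.trans (hZ x1 ⟨le_rfl, hx⟩)
  have hχ := cut_lf c1 (fun y => Real.smoothTransition.nonneg _)
    (fun y y' h => Real.smoothTransition.monotone (by linarith)) (ε := - -sgn b)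
    (by cases b <;> simp [sgn])
  have mS : MeasurableSet ({x : ℝ | sgn b * x ∈ Icc x1 (R + 2)} ×ˢ
      (Icc (-4 : ℝ) 4 ×ˢ Icc (-4 : ℝ) 4)) :=
    (measurableSet_Icc.preimage (by fun_prop)).prod (measurableSet_Icc.prod measurableSet_Icc)
  have sl0 : ∀ i, sl (fun p => cmp v' i p - cmp v i p) 0 =
      fun y => w' n (0, y) i - w n (0, y) i := fun i => funext fun y => by
    simp only [sl, P354A.cmp]
    rw [ev _ (by linarith), ev' _ (by linarith)]
  have nb : ∀ i (z : X3) (m : ℝ), (∀ α : List (Fin 3), α.length ≤ 4 → (0 : Fin 3) ∉ α →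
      |pdl α (fun y => w' n (0, y) i - w n (0, y) i) z| ≤ m) →
      Q 4 (fun p => cmp v' i p - cmp v i p) (0, z) ≤ (16 * m) ^ 2 := fun i z m h => by
    rw [← N_sq]
    refine pow_le_pow_left₀ N_nonneg ((N_words (c := m) fun α h1 h2 => ?_).trans_eq (by norm_num)) 2
    have := h α h1 h2
    rwa [← sl0, P354A.dxl_sl α ((hv'.sm i).sub (hv.sm i))] at this
  have b1 := integral_mono (((hD.c1SQ (k := 4)).mul ha.lgZ.th.sm).mul hχ.th.sm |>.int 0)
    ((integrable_indicator_iff mS).2 (integrableOn_const (C := Z * (38 * (16 * M) ^ 2))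
      (by rw [vol_box b hx]; exact ENNReal.ofReal_ne_top))) fun z => by
      have e2 : lf 1 (- -sgn b) (0, z) = sgn b * z.1 := by simp [lf_ap]
      have e3 : wZ a (0, z) = 1 / a (sgn b * z.1) := by simp [wZ, lf_ap, ea]
      simp only [e2, e3, SQ, ed]
      by_cases c : z ∈ {x : ℝ | sgn b * x ∈ Icc x1 (R + 2)} ×ˢ (Icc (-4 : ℝ) 4 ×ˢ Icc (-4 : ℝ) 4)
      · rw [indicator_of_mem c]
        exact (mul_le_of_le_one_left (mul_nonneg (one_div_pos.2 (hW.pos _)).le
          (Finset.sum_nonneg fun _ _ => Q_nonneg)) (Real.smoothTransition.le_one _)).trans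
          (mul_le_mul (hZ _ c.1) (sum_le_card fun i => nb i z M fun α h1 h2 =>
            hb i α h1 h2 z c.1.2) (Finset.sum_nonneg fun _ _ => Q_nonneg) Z0)
      rw [indicator_of_notMem c]
      by_cases c2 : R + 2 ≤ sgn b * z.1
      · rw [Real.smoothTransition.zero_of_nonpos (by linarith), zero_mul]
      have c3 : sgn b * z.1 < x1 ∨ 16 < r2 z := by
        by_contra c4
        rw [not_or, not_lt, not_lt, r2] at c4
        exact c ⟨⟨c4.1, (not_le.1 c2).le⟩,
          ⟨by nlinarith [sq_nonneg z.2.2], by nlinarith [sq_nonneg z.2.2]⟩,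
          ⟨by nlinarith [sq_nonneg z.2.1], by nlinarith [sq_nonneg z.2.1]⟩⟩
      have o : IsOpen {z : X3 | sgn b * z.1 < x1 ∨ 16 < r2 z} :=
        (isOpen_lt (f := fun z : X3 => sgn b * z.1) (by fun_prop) continuous_const).union
          (isOpen_lt (g := r2) continuous_const (by unfold r2; fun_prop))
      refine mul_nonpos_of_nonneg_of_nonpos (Real.smoothTransition.nonneg _)
        (mul_nonpos_of_nonneg_of_nonpos (one_div_pos.2 (hW.pos _)).le
          (Finset.sum_nonpos fun i _ => (nb i z 0 fun α _ _ => ?_).trans_eq (by norm_num)))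
      have g : (fun y => w' n (0, y) i - w n (0, y) i) =ᶠ[𝓝 z] (0 : X3 → ℝ) := by
        filter_upwards [o.mem_nhds c3] with y hy
        rw [hz y (hy.imp le_of_lt le_of_lt), sub_self, Pi.zero_apply]
      rw [(pdl_germ α g).self_of_nhds, pdl_zero, Pi.zero_apply, abs_zero]
  rw [integral_indicator_const _ mS, Measure.real, vol_box b hx,
    ENNReal.toReal_ofReal (by linarith), smul_eq_mul] at b1
  exact (mul_le_mul_of_nonneg_left b1 (by positivity)).trans_eq (by ring)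

end Vale.Agent.P354E2
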