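import Vale.Agent.P354IG.Glue
import Vale.Agent.P354I.Core2

/-!
Finite speed of propagation in x with a source which is cut off in x.
-/

open scoped ContDiff
open Set Filter Topology

namespace Vale.Agent.P354E2

open Vale.Agent.P354C Vale.Agent.P354H Vale.Agent.P354CS Vale.Agent.P354CU Vale.Agent.P354IG
open Vale.Agent.P354n (R4)

/-- Finite speed 1 in x for bounded smooth unknowns. -/
theorem speed2 {U U' : R4 → Ix → ℝ} {B N ε : ℝ} (hε : ε = 1 ∨ ε = -1) (hU : SmU U univ)
    (hU' : SmU U' univ) (hB : ∀ q i, |U q i| ≤ B) {p : R4} (h0 : 0 ≤ ε * p.1)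
    (hp : ε * p.1 + |p.2.1| < N)
    (H : ∀ q : R4, ε * q.1 ∈ Icc 0 (ε * p.1) → |q.2.1| < N → ∀ i,
      res (U q) (dfr U q) i = res (U' q) (dfr U' q) i)
    (hi : ∀ z : X3, |z.1| < N → U (0, z) = U' (0, z)) : U p = U' p := by
  have hB0 : 0 ≤ B := (abs_nonneg _).trans (hB p .O)
  obtain ⟨R, hR⟩ : ∃ R, R = 2 * B * (ε * p.1) + |p.2.2.1| + |p.2.2.2| + 1 := ⟨_, rfl⟩
  let φ : Fin 6 → R4 → ℝ := ![fun q => lf ε 1 0 0 q - N, fun q => lf ε (-1) 0 0 q - N,
    fun q => lf (2 * B * ε) 0 1 0 q - R, fun q => lf (2 * B * ε) 0 (-1) 0 q - R,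
    fun q => lf (2 * B * ε) 0 0 1 q - R, fun q => lf (2 * B * ε) 0 0 (-1) q - R]
  have e3 : ∀ t : ℝ, |t| = |ε * t| := fun t => by rcases hε with rfl | rfl <;> simp
  refine uni2 (φ := φ) (D := Metric.closedBall 0 (N + R)) (t0 := 0) (T := ε * p.1) hε isOpen_univ
    (isCompact_closedBall _ _) (subset_univ _) hU hU' (fun i => ?_) (fun q hq hq' => ?_)
    (fun q hq hq' => ?_) p (by simpa using h0) fun i => ?_
  · fin_cases i <;> exact (ContinuousLinearMap.contDiff _).sub contDiff_const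
  · rw [sub_zero] at hq
    refine ⟨?_, H q hq ?_, fun i => ?_⟩
    · have a0 := hq' 0
      have a1 := hq' 1
      have a2 := hq' 2
      have a3 := hq' 3
      have a4 := hq' 4
      have a5 := hq' 5
      simp only [φ, Matrix.cons_val, lf_ap] at a0 a1 a2 a3 a4 a5
      have b := mul_nonneg hB0 hq.1
      have b' := mul_nonneg hB0 h0
      have c1 := abs_nonneg p.2.1
      have c2 := abs_nonneg p.2.2.1
      have c3 := abs_nonneg p.2.2.2
      rw [mem_closedBall_zero_iff]
      simp only [Prod.norm_def, Real.norm_eq_abs, max_le_iff]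
      refine ⟨?_, abs_le.2 ⟨?_, ?_⟩, abs_le.2 ⟨?_, ?_⟩, abs_le.2 ⟨?_, ?_⟩⟩
      · rw [e3, abs_of_nonneg hq.1]
        linarith [hq.2]
      all_goals linarith [hq.1]
    · have a0 := hq' 0
      have a1 := hq' 1
      simp only [φ, Matrix.cons_val, lf_ap] at a0 a1
      exact abs_lt.2 ⟨by linarith [hq.1], by linarith [hq.1]⟩
    · fin_cases i
      · exact causal_x hε (Or.inl rfl) U N q
      · exact causal_x hε (Or.inr rfl) U N q
      all_goals exact causal_y hε (by simp) R (hB q)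
  · have a0 := hq' 0
    have a1 := hq' 1
    simp only [φ, Matrix.cons_val, lf_ap, hq] at a0 a1
    obtain ⟨t, z⟩ := q
    obtain rfl : t = 0 := hq
    exact hi z (abs_lt.2 ⟨by linarith, by linarith⟩)
  · have c1 := abs_le.1 (le_refl |p.2.1|)
    have c2 := abs_le.1 (le_refl |p.2.2.1|)
    have c3 := abs_le.1 (le_refl |p.2.2.2|)
    have d2 := abs_nonneg p.2.2.1
    have d3 := abs_nonneg p.2.2.2
    fin_cases i <;> simp only [φ, lf_ap] <;> simp <;> linarith

open Vale.Agent.P354I Vale.Agent.P354A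
open Vale.Agent.P354AS (SolS)

/-- Two members of the family agree on the smaller diamond. -/
theorem agree2 {k : ℝ} {a : ℝ → ℝ} {ε δ cb : ℝ} {K f : R4 → Ix → ℝ} {w0 : X3 → Ix → ℝ}
    {w : ℕ → R4 → Ix → ℝ} (hK : SmU K univ) (h : Fam2 k a ε δ cb K f w0 w) {n m : ℕ} {p : R4}
    (hp : -δ < p.1) (hn : |p.1| + |p.2.1| < n) (hm : |p.1| + |p.2.1| < m) : w n p = w m p := by
  obtain ⟨u, hu, eu⟩ := h.supp n |p.1|
  obtain ⟨v, hv, ev⟩ := h.supp m |p.1|
  have su : ContDiff ℝ ∞ u := contDiff_pi.2 hu.sm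
  have sv : ContDiff ℝ ∞ v := contDiff_pi.2 hv.sm
  have sK : ContDiff ℝ ∞ K := contDiff_pi.2 fun i => contDiffOn_univ.1 (hK i)
  have cS : IsCompact (⋃ i, (tsupport (cmp u i) ∪ tsupport (cmp v i))) :=
    isCompact_iUnion fun i => (hu.cs i).union (hv.cs i)
  obtain ⟨R, hR0, hR⟩ := cS.isBounded.subset_ball_lt 0 0
  let χ : ContDiffBump (0 : R4) := ⟨R, R + 1, hR0, by linarith⟩
  have out : ∀ q : R4, q ∉ Metric.ball (0 : R4) R → u =ᶠ[𝓝 q] 0 ∧ v =ᶠ[𝓝 q] 0 := fun q hq => by
    have k : ∀ i, q ∉ tsupport (cmp u i) ∧ q ∉ tsupport (cmp v i) := fun i =>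
      ⟨fun c => hq (hR (mem_iUnion.2 ⟨i, Or.inl c⟩)), fun c => hq (hR (mem_iUnion.2 ⟨i, Or.inr c⟩))⟩
    exact ⟨(eventually_all.2 fun i => notMem_tsupport_iff_eventuallyEq.1 (k i).1).mono
        fun z hz => funext hz,
      (eventually_all.2 fun i => notMem_tsupport_iff_eventuallyEq.1 (k i).2).mono
        fun z hz => funext hz⟩
  have sU : ∀ u : R4 → Ix → ℝ, ContDiff ℝ ∞ u → ContDiff ℝ ∞ fun q => χ q • K q + u q :=
    fun u su => (χ.contDiff.smul sK).add su
  obtain ⟨B, hB⟩ := (isCompact_closedBall (0 : R4) (R + 1)).exists_bound_of_continuousOn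
    (sU u su).continuous.continuousOn
  have bd : ∀ q i, |(χ q • K q + u q) i| ≤ B := fun q i => by
    by_cases c : q ∈ Metric.closedBall (0 : R4) (R + 1)
    · exact (norm_le_pi_norm _ i).trans (hB q c)
    · have c' : R + 1 < dist q 0 := by simpa using c
      have e1 : χ q = 0 := χ.zero_of_le_dist c'.le
      have e2 : u q = 0 := (out q fun d => by
        have : dist q 0 < R := d
        linarith).1.eq_of_nhds
      have := (norm_nonneg _).trans (hB 0 (Metric.mem_closedBall_self (by linarith)))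
      simpa [e1, e2] using this
  obtain ⟨s, hs, es⟩ : ∃ s : ℝ, (s = 1 ∨ s = -1) ∧ s * p.1 = |p.1| := by
    rcases le_total 0 p.1 with c | c
    · exact ⟨1, Or.inl rfl, by rw [one_mul, abs_of_nonneg c]⟩
    · exact ⟨-1, Or.inr rfl, by rw [neg_one_mul, abs_of_nonpos c]⟩
  have lt1 : p.1 < |p.1| + 1 := by linarith [le_abs_self p.1]
  have key := speed2 (U := fun q => χ q • K q + u q) (U' := fun q => χ q • K q + v q)
    (N := min (n : ℝ) m) (p := p) hs
    (fun i => (contDiff_pi.1 (sU u su) i).contDiffOn) (fun i => (contDiff_pi.1 (sU v sv) i).contDiffOn)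
    bd (by rw [es]; exact abs_nonneg _) (by rw [es]; exact lt_min hn hm) (fun q hq hx i => ?_)
    (fun z hz => ?_)
  · rw [← eu p lt1, ← ev p lt1]
    exact add_left_cancel key
  · by_cases c : q ∈ Metric.ball (0 : R4) R
    · have q1 : (0 ≤ q.1 ∨ -δ ≤ q.1) ∧ q.1 ≤ |p.1| := by
        have d := abs_nonneg p.1
        rcases hs with rfl | rfl
        · exact ⟨Or.inl (by linarith [hq.1]), by linarith [hq.1, hq.2]⟩
        · exact ⟨Or.inr (by linarith [hq.1, hq.2]), by linarith [hq.1, hq.2]⟩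
      have o : ∀ᶠ z in 𝓝 q, z.1 < |p.1| + 1 :=
        (isOpen_lt continuous_fst continuous_const).mem_nhds (show q.1 < _ by linarith [q1.2])
      have one : ∀ᶠ z in 𝓝 q, χ z = 1 := χ.eventuallyEq_one_of_mem_ball c
      have g : ∀ (u : R4 → Ix → ℝ) n, SolS K (cut n f) u |p.1| → (∀ z : R4, z.1 < |p.1| + 1 → u z = w n z) →
          res (χ q • K q + u q) (dfr (fun q => χ q • K q + u q) q) i =
            res (K q) (dfr K q) i - cut n f q i :=
        fun u n hu eu => by
          rcases q1.1 with d | d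
          · rw [← hu.eq q ⟨d, q1.2⟩ i]
            exact res_congr (U := fun q => χ q • K q + u q) (V := K + u)
              (one.mono fun z hz => by simp [hz]) i
          · rw [← h.eqn n q d i]
            exact res_congr (U := fun q => χ q • K q + u q) (V := K + w n)
              ((o.and one).mono fun z hz => by simp [hz.2, eu z hz.1]) i
      have := lt_min_iff.1 hx
      rw [g u n hu eu, g v m hv ev, cut, cut, cx_one this.1.le, cx_one this.2.le]
    · obtain ⟨a1, a2⟩ := out q c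
      exact res_congr (U := fun q => χ q • K q + u q) (V := fun q => χ q • K q + v q)
        ((a1.and a2).mono fun z hz => by simp only [hz.1, hz.2]) i
  · have z0 : ((0, z) : R4).1 < |p.1| + 1 := by
      have d := abs_nonneg p.1
      simp only
      linarith
    have := lt_min_iff.1 hz
    simp only [eu _ z0, ev _ z0, h.init, cx_one this.1.le, cx_one this.2.le]

theorem glue2 : GLUE2 := by
  intro k a ε δ cb K f w0 w hK h n p hp hn
  refine agree2 hK h hp ?_ hn
  push_cast
  linarith [Nat.le_ceil (|p.1| + |p.2.1|)]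

end Vale.Agent.P354E2
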