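import Vale.Agent.P354AS.Bar
import Vale.Agent.P354X.Xpt

/-!
Weighted energy estimate for short times in both directions, without smallness, with a source.
-/

open scoped ContDiff
open MeasureTheory Set Filter Topology

namespace Vale.Agent.P354E2

open Vale.Agent.P354H Vale.Agent.P354C Vale.Agent.P354A Vale.Agent.P354X
open Vale.Agent.P354AS (EqnS ceq0)

theorem gron1 {φ φ' : ℝ → ℝ} {L δ t : ℝ} (h : ∀ s, HasDerivAt φ (φ' s) s)
    (H : ∀ s ∈ Icc 0 δ, φ' s ≤ L * φ s) (ht : t ∈ Icc 0 δ) : φ t ≤ Real.exp (L * t) * φ 0 := by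
  have d : ∀ s, HasDerivAt (fun s => Real.exp (-L * s) * φ s)
      (Real.exp (-L * s) * (-L * 1) * φ s + Real.exp (-L * s) * φ' s) s :=
    fun s => ((hasDerivAt_id s).const_mul (-L)).exp.mul (h s)
  have a := antitoneOn_of_deriv_nonpos (convex_Icc 0 δ)
    (fun s _ => (d s).continuousAt.continuousWithinAt)
    (fun s _ => (d s).differentiableAt.differentiableWithinAt) (fun s hs => by
      rw [(d s).deriv]
      have := mul_le_mul_of_nonneg_left (H s (interior_subset hs)) (Real.exp_pos (-L * s)).le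
      linarith) (left_mem_Icc.2 (ht.1.trans ht.2)) ht ht.1
  simp only [mul_zero, Real.exp_zero, one_mul] at a
  rwa [neg_mul, Real.exp_neg, inv_mul_le_iff₀ (Real.exp_pos _)] at a

theorem gron2 {φ φ' : ℝ → ℝ} {L δ t : ℝ} (h : ∀ s, HasDerivAt φ (φ' s) s)
    (H : ∀ s ∈ Icc (-δ) δ, |φ' s| ≤ L * φ s) (ht : t ∈ Icc (-δ) δ) :
    φ t ≤ Real.exp (L * |t|) * φ 0 := by
  rcases le_total 0 t with c | c
  · rw [abs_of_nonneg c]
    exact gron1 h (fun s hs => (le_abs_self _).trans (H s ⟨by linarith [hs.1, hs.2], hs.2⟩))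
      ⟨c, ht.2⟩
  · have := gron1 (φ := fun s => φ (-s)) (φ' := fun s => -φ' (-s)) (L := L) (δ := δ) (t := -t)
      (fun s => ((h (-s)).comp s (hasDerivAt_neg s)).congr_deriv (mul_neg_one _))
      (fun s hs => (neg_le_abs _).trans (H _ ⟨by linarith [hs.2], by linarith [hs.1, hs.2]⟩))
      ⟨by linarith, by linarith [ht.1]⟩
    rw [abs_of_nonpos c]
    simpa using this

/-- The energy inequality in both directions of time, with a source. -/
theorem two_sided {f h : ℝ × X3 → ℝ} (a : Idn f h) {δ L t : ℝ} {s : X3 → ℝ} (hL : 1 ≤ L)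
    (hs : Integrable s) (s0 : ∀ x, 0 ≤ s x)
    (H : ∀ p : ℝ × X3, p.1 ∈ Icc (-δ) δ → |h p| ≤ L * f p + s p.2) (ht : t ∈ Icc (-δ) δ) :
    ∫ x, f (t, x) ≤ Real.exp (L * |t|) * ((∫ x, f (0, x)) + ∫ x, s x) := by
  obtain ⟨g, g1, g2⟩ := a.ex
  have S0 : 0 ≤ ∫ x, s x := integral_nonneg s0
  refine (le_add_of_nonneg_right S0).trans (gron2 (φ := fun t => (∫ x, f (t, x)) + ∫ x, s x)
    (fun r => (P354HU.deriv_int a.cd a.cs r).add_const _) (fun r hr => ?_) ht)
  have i1 : ∀ j, Integrable fun x => dx j (g j) (r, x) := fun j =>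
    P354HU.int_sl (P354HU.cont_fd (g1 j).1 _) ((g1 j).2.fderiv_apply ℝ _) r
  have i0 : Integrable fun x => dt f (r, x) :=
    P354HU.int_sl (P354HU.cont_fd a.cd _) (a.cs.fderiv_apply ℝ _) r
  have i2 := P354HU.int_sl a.cd.continuous a.cs r
  have e1 : ∫ x, dt f (r, x) = ∫ x, (dt f (r, x) - ∑ j, dx j (g j) (r, x)) := by
    rw [integral_sub i0 (integrable_finsetSum _ fun j _ => i1 j),
      integral_finsetSum _ fun j _ => i1 j,
      Finset.sum_eq_zero fun j _ => P354HU.int_dx (g1 j).1 (g1 j).2 j r, sub_zero]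
  have e2 := norm_integral_le_of_norm_le (f := fun x => dt f (r, x) - ∑ j, dx j (g j) (r, x))
    ((i2.const_mul L).add hs) (ae_of_all _ fun x => by
      rw [g2, add_sub_cancel_left]
      exact H (r, x) hr)
  rw [integral_add' (i2.const_mul L) hs, integral_const_mul] at e2
  rw [e1]
  exact e2.trans (by nlinarith)

theorem rr_one (i : Ix) : rr 1 i = 1 := ite_self _

theorem one_abs {θ H G ψ ψ' R π : ℝ} (hθ : 0 ≤ θ) (hψ : 0 ≤ ψ) (hψ' : |ψ'| ≤ ψ) (i : Ix)
    {z : Ix → ℝ} {d : Fin 3 → Ix → ℝ} (hz : ∀ j, |z j| ≤ H) (hd : ∀ j m, |d j m| ≤ 2 * θ)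
    (hπ : |π| ≤ R * H + G) :
    |2 * ψ * (rr 1 i ^ 2 * (z i * (π - dmp i * (0 / 2) * z i))) +
      ψ' * (rr 1 i ^ 2 * c1 i * (z i * z i)) +
      ψ * (rr 1 i ^ 2 * ((fl i).map fun t =>
        (t.1 : ℝ) * (d t.2.2.1 t.2.1 * (z i * z t.2.2.2))).sum)| ≤
      (2 * R + 3 + 2 * θ * cf i) * (ψ * H ^ 2) + ψ * G ^ 2 := by
  have hH : 0 ≤ H := (abs_nonneg _).trans (hz i)
  obtain ⟨-, t2, t3, t4, -⟩ := tab1 i (all_mem i)
  have e1 : |z i * π| ≤ H * (R * H + G) := by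
    rw [abs_mul]
    exact mul_le_mul (hz i) hπ (abs_nonneg _) hH
  have e2 : |ψ' * (c1 i * (z i * z i))| ≤ ψ * (2 * (H * H)) := by
    rw [abs_mul, abs_mul, abs_mul]
    have : |(c1 i : ℝ)| ≤ 2 := by
      rw [← Int.cast_abs]
      exact_mod_cast abs_le.2 ⟨by omega, by omega⟩
    exact mul_le_mul hψ' (mul_le_mul this (mul_le_mul (hz i) (hz i) (abs_nonneg _) hH)
      (by positivity) zero_le_two) (by positivity) hψ
  have e3 : |((fl i).map fun t => (t.1 : ℝ) * (d t.2.2.1 t.2.1 * (z i * z t.2.2.2))).sum| ≤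
      cf i * (2 * θ * (H * H)) := by
    rw [cf, ← List.sum_map_mul_right]
    refine abs_list_le _ fun t _ => ?_
    rw [abs_mul, abs_mul, abs_mul]
    exact mul_le_mul_of_nonneg_left (mul_le_mul (hd _ _)
      (mul_le_mul (hz _) (hz _) (abs_nonneg _) hH) (by positivity) (by positivity)) (abs_nonneg _)
  simp only [rr_one, one_pow, one_mul, zero_div, mul_zero, zero_mul, sub_zero]
  refine (abs_add_three _ _ _).trans ?_
  rw [abs_mul (2 * ψ), abs_mul ψ, abs_of_nonneg hψ, abs_of_nonneg (by positivity : 0 ≤ 2 * ψ)]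
  have a := mul_le_mul_of_nonneg_left e1 hψ
  have b := mul_le_mul_of_nonneg_left e3 hψ
  have c := mul_le_mul_of_nonneg_left (two_mul_le_add_sq H G) hψ
  nlinarith

theorem ub_zero (K : ℝ × X3 → Ix → ℝ) (i : Ix) : Ub 0 K i = cmp K i := by
  funext p
  cases i <;> simp [Ub, U0, P354A.cmp]

/-- The hypotheses of the estimate: K, w, g smooth, bounds by θ, and the equation. -/
structure St (n m : ℕ) (θ δ : ℝ) (K g w : ℝ × X3 → Ix → ℝ) : Prop where
  sK : ∀ i, ContDiff ℝ ∞ (cmp K i)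
  sg : ∀ i, ContDiff ℝ ∞ (cmp g i)
  sw : ∀ i, ContDiff ℝ ∞ (cmp w i)
  cs : ∀ i, HasCompactSupport (cmp w i)
  bK : ∀ p : ℝ × X3, p.1 ∈ Icc (-δ) δ → ∀ i, Pb (n + 1) (cmp K i) p θ
  bw : ∀ p : ℝ × X3, p.1 ∈ Icc (-δ) δ → ∀ i, Pb m (cmp w i) p θ
  eq : ∀ p : ℝ × X3, p.1 ∈ Icc (-δ) δ → EqnS K g w p

theorem en_nn (n : ℕ) (w : ℝ × X3 → Ix → ℝ) (p : ℝ × X3) : 0 ≤ en n w p :=
  Finset.sum_nonneg fun _ _ => lsum_nn _ fun _ _ => sq_nonneg _

theorem abs_le_en {n : ℕ} (w : ℝ × X3 → Ix → ℝ) (p : ℝ × X3) (i : Ix) :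
    Pb n (cmp w i) p √(en n w p) := fun _ hα =>
  Real.abs_le_sqrt (sq_le_en w p i hα)

/-- **Energy estimate.** -/
theorem en2 {n m : ℕ} {θ : ℝ} (hn : n ≤ 2 * m) (hm : 1 ≤ m) (hθ : 0 ≤ θ) :
    ∃ C : ℝ, 0 ≤ C ∧ ∀ (δ : ℝ) (K g w : ℝ × X3 → Ix → ℝ), δ ≤ 1 → St n m θ δ K g w →
      ∀ (ψ : ℝ → ℝ) (s : X3 → ℝ), ContDiff ℝ 1 ψ → (∀ y, 0 ≤ ψ y) → (∀ y, |deriv ψ y| ≤ ψ y) →
        Integrable s → (∀ x : X3, ψ x.1 * en n w (0, x) ≤ s x) →
        (∀ p : ℝ × X3, p.1 ∈ Icc (-δ) δ → ψ p.2.1 * en n g p ≤ s p.2) →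
        ∀ t ∈ Icc (-δ) δ, ∫ x : X3, ψ x.1 * en n w (t, x) ≤ C * ∫ x, s x := by
  set N : ℝ := ((words n).length : ℝ) with hN
  have hN0 : 0 ≤ N := Nat.cast_nonneg _
  obtain ⟨R, hR⟩ : ∃ R : Ix → ℝ, ∀ i, R i = 1 * cl i + 2 ^ n * (4 * θ / 1) * cq i := ⟨_, fun _ => rfl⟩
  obtain ⟨L, hL⟩ : ∃ L : ℝ, L = N * ∑ i, (2 * R i + 3 + 2 * θ * cf i) := ⟨_, rfl⟩
  have L0 : 0 ≤ L := by
    rw [hL]
    refine mul_nonneg hN0 (Finset.sum_nonneg fun i _ => ?_)
    have := cl_nn i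
    have := cq_nn i
    have := cf_nn i
    rw [hR]
    positivity
  set M : ℝ := N * Fintype.card Ix with hM
  have M0 : 0 ≤ M := by positivity
  refine ⟨Real.exp (L + 1) * (2 + M), by positivity,
    fun δ K g w hδ h ψ s hψ hψ0 hψ' hs h0 hg t ht => ?_⟩
  have s0 : ∀ x, 0 ≤ s x := fun x => (mul_nonneg (hψ0 _) (en_nn _ _ _)).trans (h0 x)
  have hU : ∀ i, ContDiff ℝ 1 (cmp (K + w) i) := fun i =>
    ((h.sK i).add (h.sw i)).of_le (by simp)
  have hI := Idn.lsum (words n) fun α _ => one_word 0 1 hψ hU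
    (z := fun j => dxl α (cmp w j)) (fun i => (P354A.dxl_sm α (h.sw i)).of_le (by simp))
    fun i => P354A.dxl_cs α (h.cs i)
  have hc0 : ∀ i, (1 : ℝ) ≤ c0 i ∧ (c0 i : ℝ) ≤ 2 := fun i =>
    ⟨by exact_mod_cast (tab1 i (all_mem i)).1, by exact_mod_cast (tab1 i (all_mem i)).2.1⟩
  have hs' : ∀ (p : ℝ × X3) i, 0 ≤ ((words n).map fun α => dxl α (cmp w i) p ^ 2).sum :=
    fun p i => lsum_nn _ fun _ _ => sq_nonneg _
  have hf : ∀ p : ℝ × X3, ((words n).map fun α => ∑ i, ψ p.2.1 *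
      (rr 1 i ^ 2 * c0 i * (dxl α (cmp w i) p * dxl α (cmp w i) p))).sum =
      ψ p.2.1 * ∑ i, c0 i * ((words n).map fun α => dxl α (cmp w i) p ^ 2).sum := by
    intro p
    simp only [lsum_sum, List.sum_map_mul_left, Finset.mul_sum, pow_two, rr_one, one_mul]
  have lo : ∀ p : ℝ × X3, ψ p.2.1 * en n w p ≤
      ψ p.2.1 * ∑ i, c0 i * ((words n).map fun α => dxl α (cmp w i) p ^ 2).sum := fun p =>
    mul_le_mul_of_nonneg_left (Finset.sum_le_sum fun i _ =>
      le_mul_of_one_le_left (hs' p i) (hc0 i).1) (hψ0 _)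
  have hE := two_sided hI (L := L + 1) (by linarith) (hs.const_mul M)
    (fun x => mul_nonneg M0 (s0 x)) (fun p hp => ?_) ht
  · rw [integral_congr_ae (Eventually.of_forall fun x => hf (t, x)),
      integral_congr_ae (Eventually.of_forall fun x => hf (0, x))] at hE
    have hi : ∀ t, Integrable fun x : X3 => ψ x.1 * ∑ i, c0 i *
        ((words n).map fun α => dxl α (cmp w i) (t, x) ^ 2).sum := fun t =>
      (P354HU.int_sl hI.cd.continuous hI.cs t).congr (Eventually.of_forall fun x => hf (t, x))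
    have a := integral_mono (en_id hψ h.sw h.cs n t) (hi t) fun x => lo (t, x)
    have b := integral_mono (hi 0) (hs.const_mul 2) fun x => by
      refine le_trans ?_ (mul_le_mul_of_nonneg_left (h0 x) zero_le_two)
      simp only [en]
      rw [mul_left_comm, Finset.mul_sum _ _ 2]
      exact mul_le_mul_of_nonneg_left (Finset.sum_le_sum fun i _ =>
        mul_le_mul_of_nonneg_right (hc0 i).2 (hs' _ i)) (hψ0 _)
    rw [integral_const_mul] at b hE
    have S0 : 0 ≤ ∫ x, s x := integral_nonneg s0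
    have c : Real.exp ((L + 1) * |t|) ≤ Real.exp (L + 1) := Real.exp_le_exp.2
      (mul_le_of_le_one_right (by linarith) (abs_le.2 ⟨by linarith [ht.1], ht.2.trans hδ⟩))
    refine a.trans (hE.trans ((mul_le_mul_of_nonneg_left (add_le_add_left b _)
      (Real.exp_pos _).le).trans ((mul_le_mul_of_nonneg_right c (by positivity)).trans_eq ?_)))
    ring
  have hd : ∀ j i, |dx j (cmp (K + w) i) p| ≤ 2 * θ := by
    intro j i
    have a := h.bK p hp i [j] (by simp)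
    have b := h.bw p hp i [j] (by simpa using hm)
    rw [dx_eq, dv_cmp h.sK h.sw]
    exact (abs_add_le _ _).trans ((add_le_add a b).trans_eq (two_mul θ).symm)
  have hb : ∀ α ∈ words n, ∀ i, |prin 0 ((K + w) p) (fun j => dxl α (cmp w j)) i p| ≤
      R i * √(en n w p) + √(en n g p) := fun α hα i => by
    have a := ceq0 0 h.sK h.sw hn (fun i => (ub_zero K i).symm ▸ h.bK p hp i) (h.bw p hp)
      (abs_le_en w p) (P354A.mem_words.1 hα) i
    have b := rb_le one_pos le_rfl hθ (Real.sqrt_nonneg (en n w p)) n i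
    simp only [rr_one, div_one (√_), one_mul (RB _ _ _ _ _), ← hR] at b
    have sG := (GG_dxl (k := 0) h.sK h.sw i α).1
    have c := dxl_of_zero (p := p) α (sG.add (h.sg i)) fun x => by
      have := h.eq (p.1, x) hp i
      rw [res_diff 0 h.sK h.sw] at this
      simp only [P354A.cmp]
      linarith
    rw [dxl_add α sG (h.sg i)] at c
    have d := abs_le.1 (abs_le_en g p i α (P354A.mem_words.1 hα))
    have a' := abs_le.1 (a.trans b)
    exact abs_le.2 ⟨by linarith [a'.1, d.2], by linarith [a'.2, d.1]⟩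
  refine (abs_list_le _ fun α hα => (Finset.abs_sum_le_sum_abs _ _).trans
    (Finset.sum_le_sum fun i _ => one_abs hθ (hψ0 _) (hψ' _) i (z := fun j => dxl α (cmp w j) p)
      (d := fun j i => dx j (cmp (K + w) i) p)
      (fun j => abs_le_en w p j α (P354A.mem_words.1 hα)) hd (hb α hα i))).trans ?_
  rw [hf]
  simp only [Finset.sum_add_distrib (f := fun i => (2 * R i + 3 + 2 * θ * cf i) * _),
    ← Finset.sum_mul, List.map_const', List.sum_replicate, nsmul_eq_mul, ← hN,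
    Real.sq_sqrt (en_nn _ _ _), Finset.sum_const, Finset.card_univ]
  have a := mul_le_mul_of_nonneg_left (lo p) L0
  have b := mul_le_mul_of_nonneg_left (hg p hp) M0
  have c := (mul_nonneg (hψ0 p.2.1) (en_nn n w p)).trans (lo p)
  rw [mul_add, ← mul_assoc N, ← hL]
  rw [hM] at b ⊢
  linarith

end Vale.Agent.P354E2
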