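import Vale.Agent.P354E2.En
import Vale.Agent.P354AE.Solve
import Vale.Agent.P354AY.Wt
import Vale.Agent.P354SH.Defs

/-!
Weighted pointwise bounds of all orders and Lipschitz dependence for short times.
-/

open scoped ContDiff
open MeasureTheory Set Filter Topology

namespace Vale.Agent.P354E2

open Vale.Agent.P354H Vale.Agent.P354C Vale.Agent.P354A Vale.Agent.P354X Vale.Agent.P354I
open Vale.Agent.P354AS (EqnS)
open Vale.Agent.P354SH (Hyp SH23)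

theorem maj_bd {k A0 t ε : ℝ} {a A : ℝ → ℝ} (hk : 0 < k) (ha : Wt k a A A0) {n : ℕ}
    {v : ℝ × X3 → Ix → ℝ} (hv : ∀ i, ContDiff ℝ ∞ (cmp v i))
    (hb : ∀ i (β : List (Fin 3)), β.length ≤ n → ∀ y, |pdl β (cmp (sl v t) i) y| ≤ ε * a y.1)
    (hz : ∀ y, 25 ≤ r2 y → v (t, y) = 0) (x0 : ℝ) (y : X3) :
    ps (k / 16) x0 y.1 * en n v (t, y) ≤ Fintype.card Ix * (words n).length * 2 * (ε * a x0) ^ 2 *
      maj (k / 64) 5 (y + (-x0, 0)) := by
  have hp := (ps_pos (k / 16) x0 y.1).le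
  by_cases hy : y.2 ∈ Icc (-5 : ℝ) 5 ×ˢ Icc (-5 : ℝ) 5
  · have e1 := en_le (n := n) (w := v) (p := (t, y)) (c := (ε * a y.1) ^ 2) fun i β hβ => by
      have := hb i β hβ y
      rw [show cmp (sl v t) i = sl (cmp v i) t from rfl, pdl_sl β (hv i)] at this
      rw [← sq_abs]
      exact pow_le_pow_left₀ (abs_nonneg _) this 2
    have e2 := mul_le_mul_of_nonneg_left (wt_ps hk ha x0 y.1)
      (show (0 : ℝ) ≤ Fintype.card Ix * (words n).length * ε ^ 2 by positivity)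
    refine (mul_le_mul_of_nonneg_left e1 hp).trans ?_
    simp only [maj, Prod.fst_add, Prod.snd_add, add_zero, indicator_of_mem hy, mul_one,
      ← sub_eq_add_neg]
    exact le_trans (le_of_eq (by ring)) (e2.trans (le_of_eq (by ring)))
  · have e1 := en_le (n := n) (w := v) (p := (t, y)) (c := 0) fun i β _ => by
      have e2 : tsupport (sl (cmp v i) t) ⊆ {y : X3 | y.2 ∈ Icc (-5 : ℝ) 5 ×ˢ Icc (-5 : ℝ) 5} := by
        refine closure_minimal (fun z hz' => ?_)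
          ((isClosed_Icc.prod isClosed_Icc).preimage continuous_snd)
        by_contra c
        refine hz' (congrFun (hz z ?_) i)
        rw [mem_ofPred_eq, mem_prod, mem_Icc, mem_Icc, ← abs_le, ← abs_le, not_and_or, not_le,
          not_le] at c
        unfold r2
        rcases c with c | c <;>
          nlinarith [sq_abs z.2.1, sq_abs z.2.2, sq_nonneg z.2.1, sq_nonneg z.2.2]
      have e3 := image_eq_zero_of_notMem_tsupport fun c => hy (e2 (tsupp_pdl β _ c))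
      rw [pdl_sl β (hv i)] at e3
      exact le_of_eq (by rw [show dxl β (cmp v i) (t, y) = 0 from e3]; simp)
    refine (mul_le_mul_of_nonneg_left e1 hp).trans ?_
    simp only [mul_zero]
    exact mul_nonneg (by positivity) (maj_nn _ _ _)

/-- **Weighted pointwise estimate.** -/
theorem pt2 {s θ : ℝ} {n m : ℕ} (hs : 1 < s) (hn : n + 3 ≤ 2 * m) (hθ : 0 ≤ θ) :
    ∃ C : ℝ, 0 ≤ C ∧ ∀ (δ c : ℝ) (K g w : ℝ × X3 → Ix → ℝ), δ ≤ 1 → 0 ≤ c →
      St (n + 3) m θ δ K g w → WB s (n + 3) c (sl w 0) → (∀ z, 25 ≤ r2 z → w (0, z) = 0) →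
      (∀ t ∈ Icc (-δ) δ, WB s (n + 3) c (sl g t) ∧ ∀ z, 25 ≤ r2 z → g (t, z) = 0) →
      ∀ t ∈ Icc (-δ) δ, WB s n (C * c) (sl w t) := by
  obtain ⟨a, A, A0, ca, ha, -, hab⟩ := P354AY.wt 16 s (by norm_num) hs
  obtain ⟨C, hC, h⟩ := en2 hn (by omega) hθ
  obtain ⟨K0, hK0, hso⟩ := wsob (16 / 16)
  set N : ℝ := (Fintype.card Ix : ℝ) * ((words (n + 3)).length : ℝ) with hN
  have hN0 : 0 ≤ N := by positivity
  set I := ∫ y, maj (16 / 64) 5 y with hI
  have hI0 : 0 ≤ I := integral_nonneg (maj_nn _ _)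
  have c0 : 0 ≤ ca := by
    have := ((ha.pos 0).trans_le (hab 0).2).le
    simpa using this
  refine ⟨K0 * √(C * (N * 2 * I)) * ca, by positivity,
    fun δ c K g w hδ hc hS h0 z0 hg t ht i α hα x => ?_⟩
  have up : ∀ {v : X3 → Ix → ℝ}, WB s (n + 3) c v → ∀ i (β : List (Fin 3)), β.length ≤ n + 3 →
      ∀ y, |pdl β (cmp v i) y| ≤ c * a y.1 := fun hv i β hβ y =>
    (hv i β hβ y).trans (mul_le_mul_of_nonneg_left (hab _).1 hc)
  have hm := haveI := rinv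
    (maj_int (show (16 / 64 : ℝ) ≠ 0 by positivity) 5).comp_add_right ((-x.1, 0) : X3)
  have h1 := h δ K g w hδ hS _ _ (ps_cd (16 / 16) x.1) (fun y => (ps_pos _ _ y).le)
    (fun y => (ps_der (by positivity) _ y).trans_eq (by norm_num))
    (hm.const_mul (N * 2 * (c * a x.1) ^ 2))
    (maj_bd (by norm_num) ha hS.sw (up h0) z0 x.1)
    (fun p hp => maj_bd (by norm_num) ha hS.sg (up (hg _ hp).1) (hg _ hp).2 x.1 p.2) t ht
  rw [integral_const_mul, int_tr _ (maj (16 / 64) 5), ← hI] at h1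
  have hi := en_id (ps_cd (16 / 16) x.1) hS.sw hS.cs (n + 3) t
  have g1 : P354H.Good (sl (cmp w i) t) := ⟨sl_sm (hS.sw i) _, P354HU.cs_sl (hS.cs i) _⟩
  have hX : 0 ≤ c * a x.1 := mul_nonneg hc (ha.pos _).le
  have h4 := hso _ x (√(C * (N * 2 * I)) * (c * a x.1)) (g1.pdl α) fun β hβ => by
    refine n2_le_of_sq (by positivity) ?_
    refine le_trans (integral_mono (c0_mw (Real.continuous_sqrt.comp
      ((ps_cd _ x.1).continuous.comp continuous_fst)) ((g1.pdl α).pdl β).c0).sq hi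
      fun y => ?_) (h1.trans (le_of_eq ?_))
    · simp only [mw, norm_smul, mul_pow, Real.norm_eq_abs, sq_abs,
        Real.sq_sqrt (ps_pos _ _ _).le]
      rw [← pdl_append, pdl_sl _ (hS.sw i)]
      exact mul_le_mul_of_nonneg_left (sq_le_en w _ i (by rw [List.length_append]; omega))
        (ps_pos _ _ _).le
    · rw [mul_pow (√_), Real.sq_sqrt (by positivity)]
      ring
  have h5 := mul_le_mul_of_nonneg_left (hab x.1).2
    (show 0 ≤ K0 * √(C * (N * 2 * I)) * c by positivity)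
  exact h4.trans (le_trans (le_of_eq (by ring)) (h5.trans_eq (by ring)))

theorem WB.cut {s c d : ℝ} {m n : ℕ} {v : X3 → Ix → ℝ} (hv : ∀ i, ContDiff ℝ ∞ (cmp v i))
    (h : WB s m c v) (hd : Sb m (fun z : X3 => cx n z.1) d) (hc : 0 ≤ c) :
    WB s m (2 ^ m * d * c) fun z => cx n z.1 • v z := fun i α hα z => by
  have d0 := hd.nonneg
  refine (P354AE.pt_mul (P354AE.cx_sm n) (hv i) hd (fun β hβ => h i β hβ z) α hα).trans
    ((two_pow_le hα (by positivity)).trans_eq (by ring))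

theorem WB.mono {s c c' : ℝ} {m m' : ℕ} {v : X3 → Ix → ℝ} (h : WB s m c v) (hm : m' ≤ m)
    (hc : c ≤ c') : WB s m' c' v := fun i α hα z =>
  (h i α (hα.trans hm) z).trans (mul_le_mul_of_nonneg_right hc (by positivity))

theorem WB.pb {s c : ℝ} {m : ℕ} {v : ℝ × X3 → Ix → ℝ} {p : ℝ × X3} (hs : 1 < s) (hc : 0 ≤ c)
    (hv : ∀ i, ContDiff ℝ ∞ (cmp v i)) (h : WB s m c (sl v p.1)) (i : Ix) :
    Pb m (cmp v i) p c := fun α hα => by
  rw [dxl_eq_pdl α (hv i)]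
  exact (h i α hα p.2).trans (mul_le_of_le_one_right hc
    (Real.rpow_le_one_of_one_le_of_nonpos (by nlinarith [sq_nonneg p.2.1]) (by linarith)))

theorem sb_pb {c : ℝ} {m : ℕ} {f : ℝ × X3 → ℝ} {p : ℝ × X3} (hf : ContDiff ℝ ∞ f)
    (h : Sb m (sl f p.1) c) : Pb m f p c := fun α hα => by
  rw [dxl_eq_pdl α hf]
  exact h α hα p.2

theorem Pb.add' {n : ℕ} {f g : ℝ × X3 → ℝ} {p : ℝ × X3} {c d : ℝ} (h : Pb n f p c)
    (h' : Pb n g p d) (hf : Sm f) (hg : Sm g) : Pb n (fun q => f q + g q) p (c + d) :=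
  fun α hα => by
    rw [dxl_add α hf hg]
    exact (abs_add_le _ _).trans (add_le_add (h α hα) (h' α hα))

theorem cut_sm {f : ℝ × X3 → Ix → ℝ} (hf : SmU f univ) (n : ℕ) (i : Ix) :
    ContDiff ℝ ∞ (cmp (cut n f) i) :=
  ((P354AE.cx_sm n).comp contDiff_snd).mul (contDiffOn_univ.1 (hf i))

/-- Part 2 of SHORT for one order. -/
def P2 (s cb : ℝ) (C : ℕ → ℝ) (m : ℕ) (B F : ℝ) : Prop :=
  ∀ δ ≤ 1, ∀ K f, Hyp C K f → ∀ w0 w, Su w0 → Fam0 δ cb K f w0 w → ∀ c, 0 ≤ c → c ≤ B →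
    WB s (m + 3) c w0 → (∀ t ∈ Icc (-1 : ℝ) 1, WB s (m + 3) c (sl f t)) →
    ∀ n, ∀ t ∈ Icc (-δ) δ, WB s m (F * c) (sl (w n) t)

theorem p2_step {s cb B : ℝ} {C : ℕ → ℝ} {m l : ℕ} (hs : 1 < s) (hl : m + 3 ≤ 2 * l) (θ : ℝ)
    (H : ∀ δ ≤ 1, ∀ K f, Hyp C K f → ∀ w0 w, Su w0 → Fam0 δ cb K f w0 w → ∀ c, 0 ≤ c → c ≤ B →
      WB s (m + 3) c w0 → (∀ t ∈ Icc (-1 : ℝ) 1, WB s (m + 3) c (sl f t)) →
      ∀ n (p : ℝ × X3), p.1 ∈ Icc (-δ) δ → ∀ i, Pb l (cmp (w n) i) p θ) :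
    ∃ F ≥ 0, P2 s cb C m B F := by
  obtain ⟨D, D0, h⟩ := pt2 (θ := |C (m + 3 + 1)| + |θ|) hs hl (by positivity)
  obtain ⟨d, hd⟩ := P354AE.sb_cx (m + 3)
  have d0 := (hd 0).nonneg
  refine ⟨D * (2 ^ (m + 3) * d), by positivity,
    fun δ hδ K f hK w0 w h0 hw c c0 cB b0 bf n t ht => ?_⟩
  have sub : Icc (-δ) δ ⊆ Icc (-1 : ℝ) 1 := Icc_subset_Icc (neg_le_neg hδ) hδ
  have sK : ∀ i, ContDiff ℝ ∞ (cmp K i) := fun i => contDiffOn_univ.1 (hK.sK i)
  rw [mul_assoc]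
  refine h δ _ K (cut n f) (w n) hδ (by positivity) ⟨sK, cut_sm hK.sf n,
    fun i => (hw.smooth n i).1, fun i => (hw.smooth n i).2,
    fun p hp i => (sb_pb (sK i) (hK.bd _ _ (sub hp) i).1).mono le_rfl
      ((le_abs_self _).trans (le_add_of_nonneg_right (abs_nonneg _))),
    fun p hp i => (H δ hδ K f hK w0 w h0 hw c c0 cB b0 bf n p hp i).mono le_rfl
      ((le_abs_self _).trans (le_add_of_nonneg_left (abs_nonneg _))), hw.eqn n⟩ ?_
    (fun z hz => by rw [hw.init, h0.2 z hz, smul_zero]) (fun r hr => ⟨?_, fun z hz => ?_⟩) t ht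
  · rw [show sl (w n) 0 = _ from funext (hw.init n)]
    exact WB.cut h0.1 b0 (hd n) c0
  · exact WB.cut (fun i => sl_sm (contDiffOn_univ.1 (hK.sf i)) r) (bf r (sub hr)) (hd n) c0
  · rw [cut, hK.supp _ (Or.inl hz), smul_zero]

theorem p2 {s : ℝ} (cb B : ℝ) (C : ℕ → ℝ) (hs : 1 < s) (m : ℕ) : ∃ F ≥ 0, P2 s cb C m B F := by
  have low : ∀ m ≤ 5, ∃ F ≥ 0, P2 s cb C m B F := fun m hm =>
    p2_step (l := 5) hs (by omega) cb fun δ _ K f _ w0 w _ hw _ _ _ _ _ n p hp i =>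
      sb_pb (hw.smooth n i).1 (hw.bd n p.1 hp i)
  induction m with
  | zero => exact low 0 (by omega)
  | succ m ih =>
    by_cases hm : m + 1 ≤ 5
    · exact low _ hm
    obtain ⟨F, F0, h⟩ := ih
    exact p2_step (l := m) hs (by omega) (F * B)
      fun δ hδ K f hK w0 w h0 hw c c0 cB b0 bf n p hp i =>
      (WB.pb hs (mul_nonneg F0 c0) (fun i => (hw.smooth n i).1)
        (h δ hδ K f hK w0 w h0 hw c c0 cB (WB.mono b0 (by omega) le_rfl)
          (fun t ht => WB.mono (bf t ht) (by omega) le_rfl) n p.1 hp) i).mono le_rfl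
        (mul_le_mul_of_nonneg_left cB F0)

/-- Part 3 of SHORT for one order. -/
def P3 (s cb : ℝ) (C : ℕ → ℝ) (m : ℕ) (B F : ℝ) : Prop :=
  ∀ δ ≤ 1, ∀ K f, Hyp C K f → ∀ w0 w w0' w', Su w0 → Su w0' → Fam0 δ cb K f w0 w →
    Fam0 δ cb K f w0' w' → ∀ c, 0 ≤ c → WB s (m + 7) B w0 → WB s (m + 7) B w0' →
    (∀ t ∈ Icc (-1 : ℝ) 1, WB s (m + 7) B (sl f t)) → WB s (m + 3) c (w0 - w0') →
    ∀ n, ∀ t ∈ Icc (-δ) δ, WB s m (F * c) (sl (w n - w' n) t)

theorem p3 {s : ℝ} (cb B : ℝ) (C : ℕ → ℝ) (hs : 1 < s) (m : ℕ) : ∃ F ≥ 0, P3 s cb C m B F := by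
  obtain ⟨F, F0, h2⟩ := p2 cb B C hs (m + 4)
  obtain ⟨D, D0, h⟩ := pt2 (θ := |C (m + 4)| + 2 * (F * |B|)) (n := m) (m := m + 4) hs (by omega)
    (by positivity)
  obtain ⟨d, hd⟩ := P354AE.sb_cx (m + 3)
  have d0 := (hd 0).nonneg
  refine ⟨D * (2 ^ (m + 3) * d), by positivity,
    fun δ hδ K f hK w0 w w0' w' h0 h0' hw hw' c c0 b0 b0' bf bd n t ht => ?_⟩
  have B0 : 0 ≤ B := by
    have := (abs_nonneg _).trans (b0 Ix.O [] (Nat.zero_le _) 0)
    simpa using this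
  rw [abs_of_nonneg B0] at h
  have sub : Icc (-δ) δ ⊆ Icc (-1 : ℝ) 1 := Icc_subset_Icc (neg_le_neg hδ) hδ
  have sK : ∀ i, ContDiff ℝ ∞ (cmp K i) := fun i => contDiffOn_univ.1 (hK.sK i)
  have s1 := fun i => (hw.smooth n i).1
  have s2 := fun i => (hw'.smooth n i).1
  have FB := mul_nonneg F0 B0
  have q1 := fun (p : ℝ × X3) hp => WB.pb hs FB s1
    (h2 δ hδ K f hK w0 w h0 hw B B0 le_rfl b0 bf n p.1 hp)
  have q2 := fun (p : ℝ × X3) hp => WB.pb hs FB s2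
    (h2 δ hδ K f hK w0' w' h0' hw' B B0 le_rfl b0' bf n p.1 hp)
  have e0 : sl (w n - w' n) 0 = fun z => cx n z.1 • (w0 - w0') z := funext fun z => by
    rw [sl, Pi.sub_apply, hw.init, hw'.init, Pi.sub_apply, smul_sub]
  rw [mul_assoc]
  refine h δ _ (K + w' n) 0 (w n - w' n) hδ (by positivity) ⟨fun i => (sK i).add (s2 i),
    fun _ => contDiff_const, fun i => (s1 i).sub (s2 i),
    fun i => (hw.smooth n i).2.sub (hw'.smooth n i).2,
    fun p hp i => (Pb.add' (sb_pb (sK i) (hK.bd _ _ (sub hp) i).1) (q2 p hp i) (sK i) (s2 i)).mono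
      le_rfl (by linarith [le_abs_self (C (m + 3 + 1))]), fun p hp i α hα => ?_, fun p hp i => ?_⟩
    (e0 ▸ WB.cut (fun i => (h0.1 i).sub (h0'.1 i)) bd (hd n) c0)
    (fun z hz => by
      rw [Pi.sub_apply, hw.init, hw'.init, h0.2 z hz, h0'.2 z hz, sub_self])
    (fun r _ => ⟨fun i α _ z => ?_, fun _ _ => rfl⟩) t ht
  · have e : cmp (w n - w' n) i = fun q => cmp (w n) i q + -1 * cmp (w' n) i q :=
      funext fun q => by simp only [P354A.cmp, Pi.sub_apply]; ring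
    rw [e, dxl_add α (s1 i) (Sm.cmul (s2 i) _), dxl_cmul α (s2 i)]
    have a := abs_le.1 (q1 p hp i α hα)
    have b := abs_le.1 (q2 p hp i α hα)
    have := abs_nonneg (C (m + 4))
    exact abs_le.2 ⟨by linarith [a.1, b.2], by linarith [a.2, b.1]⟩
  · rw [add_add_sub_cancel, hw.eqn n p hp i, hw'.eqn n p hp i]
    exact (sub_zero _).symm
  · rw [show cmp (sl (0 : ℝ × X3 → Ix → ℝ) r) i = 0 from rfl, pdl_zero, Pi.zero_apply, abs_zero]
    positivity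

/-- **Parts 2 and 3 of SHORT.** -/
theorem sh23 : SH23 := by
  intro s C cb hs
  choose F F0 h using fun m B => p2 cb B C hs m
  choose G G0 h' using fun m B => p3 cb B C hs m
  refine ⟨1, one_pos, fun m B => F m B + G m B, fun δ _ hδ K f hK =>
    ⟨fun w0 w h0 hw m B c c0 cB b0 bf n t ht => WB.mono
      (h m B δ hδ K f hK w0 w h0 hw c c0 cB b0 bf n t ht) le_rfl ?_,
    fun w0 w w0' w' h0 h0' hw hw' m B c c0 b0 b0' bf bd n t ht => WB.mono
      (h' m B δ hδ K f hK w0 w w0' w' h0 h0' hw hw' c c0 b0 b0' bf bd n t ht) le_rfl ?_⟩⟩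
  · exact mul_le_mul_of_nonneg_right (le_add_of_nonneg_right (G0 m B)) c0
  · exact mul_le_mul_of_nonneg_right (le_add_of_nonneg_left (F0 m B)) c0

end Vale.Agent.P354E2
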